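import Vale.Agent.P219.Relax.Six.CandB.Rat
import Vale.Agent.P219.Relax.Six.InRed

/-!
# P219, dimension six: the candidate as fractions in the parameters

The contact `t` and the root `ω` are fractions in `σ` and `v`; so is everything built from the
free function.
-/

noncomputable section

open Set Real

namespace Vale.Agent.P219.CH.Relax.Six.CandB

open Vale.Agent.P219.Poly (E)
open Five (Pt yf)

/-! ## The fractions -/

/-- The contact. -/
def tR : RE := ⟨.mul (.k 2) (.x 1), ⟨0, 0, 0, 1, 0, 0, 0⟩, 1⟩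
/-- Its inverse. -/
def itR : RE := ⟨nE, ⟨0, 1, 0, 0, 0, 0, 0⟩, 2⟩
/-- The root. -/
def omR : RE := ⟨oE, ⟨0, 0, 0, 1, 0, 0, 0⟩, 1⟩
/-- Its inverse. -/
def iomR : RE := ⟨nE, ⟨0, 0, 0, 0, 1, 0, 0⟩, 1⟩
/-- `σ`. -/
def sR : RE := .ofE (.x 0)
/-- Its inverse. -/
def isR : RE := ⟨.k 1, ⟨1, 0, 0, 0, 0, 0, 0⟩, 1⟩
/-- The inverse of the common denominator. -/
def idR : RE := ⟨.k 1, ⟨0, 0, 1, 0, 0, 0, 0⟩, 1⟩
/-- `e`. -/
def eR : RE := .ofE eE
/-- The concavity constant. -/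
def qR : RE := ⟨.mul (.k 4) eE, ⟨0, 0, 0, 0, 0, 1, 0⟩, 1⟩
/-- The inverse of the concavity factor at the contact. -/
def izR : RE := ⟨.mul aE (.pow nE 2), ⟨0, 0, 0, 0, 0, 0, 1⟩, 1⟩
/-- An integer. -/
def iR (z : ℤ) : RE := .ofQ z 1
/-- A half. -/
def hR : RE := .ofQ 1 2
/-- An integer power of the root. -/
def zpR (n : ℤ) : RE := if 0 ≤ n then omR.pow n.toNat else iomR.pow (-n).toNat
/-- `x = t ^ 2`. -/
def xR : RE := tR.pow 2
/-- Its inverse. -/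
def ixR : RE := itR.pow 2
/-- The common factor. -/
def yR : RE := omR.pow 2
/-- Its inverse. -/
def iyR : RE := iomR.pow 2
/-- `1 - x`. -/
def wR : RE := (iR 1).sub xR

/-- The coefficients of the free function with their exponents. -/
def cR : List (RE × ℤ) :=
  [(RE.mul (.ofQ (-2) 5) sR, -5), (.ofQ 36 25, -4), (RE.mul (.ofQ (-54) 25) isR, -3),
    (RE.mul (.ofE (horner c1L)) ((isR.pow 2).mul idR), -2),
    (RE.mul (.ofE (horner c2L)) ((isR.pow 3).mul idR), -1),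
    (RE.mul ((RE.ofQ (-27) 50).add (RE.mul (.ofQ 7 4) (sR.pow 2))) (isR.pow 5), 1),
    (RE.mul (.ofE (horner bL)) ((isR.pow 5).mul idR), 3)]

/-- The coefficients of the derivative. -/
def derR (L : List (RE × ℤ)) : List (RE × ℤ) :=
  L.map fun a => (((RE.ofQ (-a.2) 2).mul eR).mul a.1, a.2 - 2)

/-- The value at the root. -/
def valR : List (RE × ℤ) → RE
  | [] => iR 0
  | [a] => a.1.mul (zpR a.2)
  | a :: L => (a.1.mul (zpR a.2)).add (valR L)

/-- The sum of the coefficients. -/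
def val1R : List (RE × ℤ) → RE
  | [] => iR 0
  | [a] => a.1
  | a :: L => a.1.add (val1R L)

/-- The free function. -/
def q0R : RE := valR cR
/-- Its derivative. -/
def q1R : RE := valR (derR cR)
/-- Its second derivative. -/
def q2R : RE := valR (derR (derR cR))
/-- Its third derivative. -/
def q3R : RE := valR (derR (derR (derR cR)))
/-- The volume constant. -/
def bR : RE := (RE.ofQ (-3) 4).mul (val1R cR)
/-- The quadratic factor. -/
def nqR : RE := ((iR 5).sub (((iR 10).sub ((iR 3).mul eR)).mul xR)).add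
  (((iR 2).mul eR).mul (xR.pow 2))
/-- The slope of the first factor. -/
def lwR : RE := (((iR 2).mul eR).mul xR).sub ((iR 1).add eR)
/-- The slope of the quadratic factor. -/
def l2R : RE := (((iR 4).mul eR).mul xR).sub ((iR 10).sub ((iR 3).mul eR))
/-- `x Q' - Q`. -/
def e1R : RE := (xR.mul q1R).sub q0R
/-- The numerator of the weight. -/
def n0R : RE := ((((iR 2).mul bR).mul (yR.pow 4)).add ((wR.mul yR).mul e1R)).add
  (hR.mul (nqR.mul q0R))
/-- Its derivative. -/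
def n1R : RE := ((((((iR (-8)).mul eR).mul bR).mul (yR.pow 3)).add (lwR.mul e1R)).add
  ((wR.mul yR).mul (xR.mul q2R))).add (hR.mul ((l2R.mul q0R).add (nqR.mul q1R)))
/-- Its second derivative. -/
def n2R : RE := ((((((((iR 24).mul (eR.pow 2)).mul bR).mul (yR.pow 2)).add
  (((iR 2).mul eR).mul e1R)).add (((iR 2).mul lwR).mul (xR.mul q2R))).add
    ((wR.mul yR).mul (q2R.add (xR.mul q3R)))).add
      ((((iR 2).mul eR).mul q0R).add (l2R.mul q1R))).add (hR.mul (nqR.mul q2R))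
/-- The weight times the contact. -/
def w0R : RE := (((iR 1).add (eR.mul xR)).mul iyR).sub ((RE.ofQ 1 5).mul (n0R.mul ixR))
/-- Its derivative. -/
def w1R : RE := ((((iR 2).mul eR).mul (iyR.pow 2)).sub ((RE.ofQ 1 5).mul (n1R.mul ixR))).add
  ((RE.ofQ 1 5).mul (n0R.mul (ixR.pow 2)))
/-- Its second derivative. -/
def w2R : RE := (((((iR 4).mul (eR.pow 2)).mul (iyR.pow 3)).sub
  ((RE.ofQ 1 5).mul (n2R.mul ixR))).add ((RE.ofQ 2 5).mul (n1R.mul (ixR.pow 2)))).sub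
    ((RE.ofQ 2 5).mul (n0R.mul (ixR.pow 3)))
/-- `3 + 5 e x`. -/
def c5R : RE := (iR 3).add (((iR 5).mul eR).mul xR)
/-- The slope in the cosine. -/
def pxR : RE := ((q0R.mul ixR).add ((iR 2).mul w1R)).add ((c5R.mul w0R).mul (ixR.mul iyR))
/-- Its derivative. -/
def px1R : RE := ((((q1R.mul ixR).sub (q0R.mul (ixR.pow 2))).add ((iR 2).mul w2R)).add
  ((c5R.mul w1R).mul (ixR.mul iyR))).add
    (((((iR 5).mul eR).mul (xR.mul yR)).sub
      (c5R.mul ((iR 1).sub (((iR 2).mul eR).mul xR)))).mul (w0R.mul ((ixR.mul iyR).pow 2)))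
/-- The derivative of the slope in the contact. -/
def p1R : RE := ((iR 2).mul tR).mul px1R
/-- `U`. -/
def uR : RE := (w0R.mul itR).sub (tR.mul pxR)
/-- `U'`. -/
def u1R : RE := (hR.mul yR).mul
  ((((iR 2).mul w1R).sub (w0R.mul ixR)).sub (pxR.add (tR.mul p1R)))
/-- `G'`. -/
def g1R : RE := (hR.mul yR).mul p1R
/-- `p`. -/
def pR : RE := (hR.mul itR).mul ((iR 1).add (eR.mul xR))
/-- `g`. -/
def gR : RE := (hR.mul itR).mul yR

/-! ## They represent -/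

/-- The parameters, the contact and the root. -/
structure Param (σ v : ℝ) : Prop where
  hσ : σ ∈ Ioo (0 : ℝ) 1
  hv : v ∈ Ioc (0 : ℝ) 1

/-- The free function. -/
def gB (σ : ℝ) : Gen3 := Cand.gq σ

/-- The point at the contact. -/
def ptB (σ v : ℝ) : Pt := ptIn (1 - σ ^ 2) (Tan.wtOf (1 - σ ^ 2) (gB σ)) (RootGen.tp σ v)

namespace Param

variable {σ v : ℝ} (h : Param σ v)
include h

lemma e_mem : 1 - σ ^ 2 ∈ Ioo (0 : ℝ) 1 :=
  ⟨sub_pos.2 (pow_lt_one₀ h.hσ.1.le h.hσ.2 two_ne_zero), sub_lt_self 1 (pow_pos h.hσ.1 2)⟩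

lemma sem_n : E.sem (env σ v) nE = RootGen.den σ v := by
  simp [nE, E.sem, env_zero, env_one, RootGen.den]

lemma sem_o : E.sem (env σ v) oE = RootGen.om σ v * RootGen.den σ v := by
  rw [RootGen.om, div_mul_cancel₀ _ (RootGen.den_pos h.hσ v).ne']
  simp [oE, E.sem, env_zero, env_one]
  ring

lemma om_pos : 0 < RootGen.om σ v := by
  refine div_pos ?_ (RootGen.den_pos h.hσ v)
  have : (1 - σ) * v ^ 2 ≤ 1 - σ :=
    mul_le_of_le_one_right (sub_nonneg.2 h.hσ.2.le) (pow_le_one₀ h.hv.1.le h.hv.2)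
  linarith [h.hσ.1]

lemma t_pos : 0 < RootGen.tp σ v :=
  div_pos (mul_pos two_pos h.hv.1) (RootGen.den_pos h.hσ v)

lemma t_le : RootGen.tp σ v ≤ 1 := by
  rw [RootGen.tp, div_le_one (RootGen.den_pos h.hσ v), RootGen.den]
  nlinarith [mul_nonneg (sub_nonneg.2 h.hσ.2.le) (sq_nonneg (1 - v)),
    mul_le_mul_of_nonneg_left h.hv.2 h.hσ.1.le]

lemma t_mem : RootGen.tp σ v ∈ Ioc (0 : ℝ) 1 := ⟨h.t_pos, h.t_le⟩

lemma om_sq : RootGen.om σ v ^ 2 = Tan.yl (1 - σ ^ 2) (RootGen.tp σ v ^ 2) := by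
  have := (RootGen.den_pos h.hσ v).ne'
  rw [Tan.yl, RootGen.om, RootGen.tp]
  field_simp
  rw [RootGen.den]
  ring

lemma sqrt_yl : √(Tan.yl (1 - σ ^ 2) (RootGen.tp σ v ^ 2)) = RootGen.om σ v := by
  rw [← h.om_sq, sqrt_sq h.om_pos.le]

lemma a_pos : 0 < 4 - 3 * σ ^ 2 := by linarith [pow_le_one₀ (n := 2) h.hσ.1.le h.hσ.2.le]

lemma sem_a : E.sem (env σ v) aE = 4 - 3 * σ ^ 2 := by
  simp [aE, E.sem, env_zero, env_one]
  ring

lemma sem_z : E.sem (env σ v) zE = (4 - 3 * σ ^ 2) * RootGen.den σ v ^ 2 *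
    zc (concQ (1 - σ ^ 2)) (RootGen.tp σ v) := by
  have := (RootGen.den_pos h.hσ v).ne'
  have := h.a_pos.ne'
  rw [zc, concQ, show 1 + 3 * (1 - σ ^ 2) = 4 - 3 * σ ^ 2 by ring, RootGen.tp]
  simp [zE, E.sem, h.sem_n, h.sem_a, eE, env_zero, env_one]
  field_simp
  ring

lemma q_mem : concQ (1 - σ ^ 2) ∈ Ico (0 : ℝ) 1 := by
  have := h.e_mem.1
  rw [concQ]
  refine ⟨by positivity, (div_lt_one (by linarith)).2 (by linarith [h.e_mem.2])⟩

lemma z_pos : 0 < zc (concQ (1 - σ ^ 2)) (RootGen.tp σ v) :=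
  zc_pos h.q_mem (Ioc_subset_Icc_self h.t_mem)

lemma val_pos (e : Ex) : 0 < e.val σ v := by
  have hd : 0 < E.sem (env σ v) dE := by
    simpa [dE, Cand.sem_hor, env_zero, env_one] using Cand.dl_pos ⟨h.hσ.1.le, h.hσ.2⟩
  have hn : 0 < E.sem (env σ v) nE := h.sem_n ▸ RootGen.den_pos h.hσ v
  have ho : 0 < E.sem (env σ v) oE := h.sem_o ▸ mul_pos h.om_pos (RootGen.den_pos h.hσ v)
  have ha : 0 < E.sem (env σ v) aE := h.sem_a ▸ h.a_pos
  have hz : 0 < E.sem (env σ v) zE :=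
    h.sem_z ▸ mul_pos (mul_pos h.a_pos (pow_pos (RootGen.den_pos h.hσ v) 2)) h.z_pos
  have h0 : 0 < E.sem (env σ v) (.x 0) := h.hσ.1
  have h1 : 0 < E.sem (env σ v) (.x 1) := h.hv.1
  simp only [Ex.val, Ex.expr, E.sem] at h0 h1 ⊢
  positivity

lemma rep_t : Rep σ v tR (RootGen.tp σ v) := by
  have := (RootGen.den_pos h.hσ v).ne'
  refine ⟨one_pos, ?_⟩
  simp [tR, Ex.val, Ex.expr, E.sem, h.sem_n, RootGen.tp, env_zero, env_one]
  field_simp

lemma rep_it : Rep σ v itR (RootGen.tp σ v)⁻¹ := by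
  have := h.hv.1.ne'
  refine ⟨two_pos, ?_⟩
  simp [itR, Ex.val, Ex.expr, E.sem, h.sem_n, RootGen.tp, env_zero, env_one]
  field_simp

lemma rep_om : Rep σ v omR (RootGen.om σ v) := by
  refine ⟨one_pos, ?_⟩
  simp [omR, Ex.val, Ex.expr, E.sem, h.sem_n, h.sem_o]

lemma rep_iom : Rep σ v iomR (RootGen.om σ v)⁻¹ := by
  refine ⟨one_pos, ?_⟩
  simp [iomR, Ex.val, Ex.expr, E.sem, h.sem_n, h.sem_o, h.om_pos.ne']

lemma rep_s : Rep σ v sR σ := (Rep.ofE _).congr (by simp [E.sem, env_zero, env_one])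

lemma rep_is : Rep σ v isR σ⁻¹ := by
  refine ⟨one_pos, ?_⟩
  simp [isR, Ex.val, Ex.expr, E.sem, env_zero, env_one, h.hσ.1.ne']

lemma rep_id : Rep σ v idR (Cand.rv dL σ)⁻¹ := by
  refine ⟨one_pos, ?_⟩
  simp [idR, Ex.val, Ex.expr, E.sem, env_zero, env_one, dE, Cand.sem_hor,
    (Cand.dl_pos ⟨h.hσ.1.le, h.hσ.2⟩).ne']

lemma rep_e : Rep σ v eR (1 - σ ^ 2) :=
  (Rep.ofE _).congr (by simp [eE, E.sem, env_zero, env_one, sub_eq_add_neg])

lemma rep_q : Rep σ v qR (concQ (1 - σ ^ 2)) := by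
  have := h.a_pos.ne'
  refine ⟨one_pos, ?_⟩
  simp only [qR, Ex.val, Ex.expr, E.sem, h.sem_a, concQ, eE, env_zero,
    show 1 + 3 * (1 - σ ^ 2) = 4 - 3 * σ ^ 2 by ring]
  push_cast
  simp only [pow_zero, pow_one, one_mul, mul_one]
  rw [div_mul_cancel₀ _ this]
  ring

lemma rep_iz : Rep σ v izR (zc (concQ (1 - σ ^ 2)) (RootGen.tp σ v))⁻¹ := by
  have := h.z_pos.ne'
  refine ⟨one_pos, ?_⟩
  simp [izR, Ex.val, Ex.expr, E.sem, h.sem_n, h.sem_a, h.sem_z]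
  field_simp

lemma rep_zp (n : ℤ) : Rep σ v (zpR n) (RootGen.om σ v ^ n) := by
  rw [zpR]
  rcases Int.eq_nat_or_neg n with ⟨m, rfl | rfl⟩
  · simpa using h.rep_om.pow m
  · rcases Nat.eq_zero_or_pos m with rfl | hm
    · simpa using h.rep_om.pow 0
    · rw [if_neg (by omega)]
      simpa [inv_pow] using h.rep_iom.pow m

lemma rep_x : Rep σ v xR (RootGen.tp σ v ^ 2) := h.rep_t.pow 2

lemma rep_ix : Rep σ v ixR (RootGen.tp σ v ^ 2)⁻¹ := (h.rep_it.pow 2).congr (inv_pow _ _)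

lemma rep_y : Rep σ v yR (Tan.yl (1 - σ ^ 2) (RootGen.tp σ v ^ 2)) :=
  (h.rep_om.pow 2).congr h.om_sq

lemma rep_iy : Rep σ v iyR (Tan.yl (1 - σ ^ 2) (RootGen.tp σ v ^ 2))⁻¹ :=
  (h.rep_iom.pow 2).congr (by rw [inv_pow, h.om_sq])

lemma rep_w : Rep σ v wR (1 - RootGen.tp σ v ^ 2) :=
  ((Rep.int 1).sub h.rep_x).congr (by simp)

end Param

/-- Coefficients that represent. -/
inductive CReps (σ v : ℝ) : List (RE × ℤ) → List (ℝ × ℤ) → Prop
  | nil : CReps σ v [] []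
  | cons {a x n p q} : Rep σ v a x → CReps σ v p q → CReps σ v ((a, n) :: p) ((x, n) :: q)

namespace CReps

variable {σ v : ℝ} {p : List (RE × ℤ)} {q : List (ℝ × ℤ)}

lemma der (h : Param σ v) (hc : CReps σ v p q) :
    CReps σ v (derR p) (RootGen.der (1 - σ ^ 2) q) := by
  induction hc with
  | nil => exact .nil
  | @cons a x n p q ha _ ih =>
    exact .cons ((((Rep.ofQ (-n) two_pos).mul h.rep_e).mul ha).congr (by push_cast; ring)) ih

lemma val (h : Param σ v) : ∀ {p q}, CReps σ v p q →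
    Rep σ v (valR p) (RootGen.val q (RootGen.om σ v))
  | _, _, .nil => (Rep.int 0).congr (by simp [RootGen.val])
  | _, _, .cons ha .nil => (ha.mul (h.rep_zp _)).congr (by simp [RootGen.val])
  | _, _, .cons ha (.cons hb hp) =>
    ((ha.mul (h.rep_zp _)).add (val h (.cons hb hp))).congr (by simp [RootGen.val])

lemma val1 : ∀ {p q}, CReps σ v p q → Rep σ v (val1R p) (RootGen.val q 1)
  | _, _, .nil => (Rep.int 0).congr (by simp [RootGen.val])
  | _, _, .cons ha .nil => ha.congr (by simp [RootGen.val])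
  | _, _, .cons ha (.cons hb hp) => (ha.add (val1 (.cons hb hp))).congr (by simp [RootGen.val])

end CReps

namespace Param

variable {σ v : ℝ} (h : Param σ v)
include h

lemma rep_c : CReps σ v cR (Cand.lst σ) := by
  have hz := fun p => (Rep.ofE (σ := σ) (v := v) (Cand.hor p)).congr
    (show E.sem (env σ v) (Cand.hor p) = Cand.rv p σ by simp [Cand.sem_hor, env_zero, env_one])
  refine .cons (((Rep.ofQ (-2) (by norm_num)).mul h.rep_s).congr ?_) (.cons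
    ((Rep.ofQ 36 (by norm_num)).congr ?_) (.cons
    (((Rep.ofQ (-54) (by norm_num)).mul h.rep_is).congr ?_) (.cons
    (((hz _).mul ((h.rep_is.pow 2).mul h.rep_id)).congr ?_) (.cons
    (((hz _).mul ((h.rep_is.pow 3).mul h.rep_id)).congr ?_) (.cons
    ((((Rep.ofQ (-27) (by norm_num)).add ((Rep.ofQ 7 (by norm_num)).mul (h.rep_s.pow 2))).mul
      (h.rep_is.pow 5)).congr ?_) (.cons
    (((hz _).mul ((h.rep_is.pow 5).mul h.rep_id)).congr ?_) .nil))))))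
  all_goals push_cast
  all_goals simp only [inv_pow, div_eq_mul_inv, mul_inv]
  all_goals ring

lemma rep_q0 : Rep σ v q0R ((gB σ).Q (RootGen.tp σ v ^ 2)) :=
  (h.rep_c.val h).congr (by simp [gB, Cand.gq, RootGen.gen, h.sqrt_yl])

lemma rep_q1 : Rep σ v q1R ((gB σ).Q1 (RootGen.tp σ v ^ 2)) :=
  ((h.rep_c.der h).val h).congr (by simp [gB, Cand.gq, RootGen.gen, h.sqrt_yl])

lemma rep_q2 : Rep σ v q2R ((gB σ).Q2 (RootGen.tp σ v ^ 2)) :=
  (((h.rep_c.der h).der h).val h).congr (by simp [gB, Cand.gq, RootGen.gen, h.sqrt_yl])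

lemma rep_q3 : Rep σ v q3R ((gB σ).Q3 (RootGen.tp σ v ^ 2)) :=
  ((((h.rep_c.der h).der h).der h).val h).congr
    (by simp [gB, Cand.gq, RootGen.gen, h.sqrt_yl])

lemma rep_b : Rep σ v bR (Tan.rate (gB σ)) :=
  ((Rep.ofQ (-3) (by norm_num)).mul h.rep_c.val1).congr
    (by simp [gB, Cand.gq, RootGen.gen, Tan.rate, Tan.yl]; ring)

lemma rep_nq : Rep σ v nqR (Tan.nq (1 - σ ^ 2) (RootGen.tp σ v ^ 2)) :=
  (((Rep.int 5).sub (((Rep.int 10).sub ((Rep.int 3).mul h.rep_e)).mul h.rep_x)).add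
    (((Rep.int 2).mul h.rep_e).mul (h.rep_x.pow 2))).congr (by simp [Tan.nq])

lemma rep_lw : Rep σ v lwR (-(1 + (1 - σ ^ 2)) + 2 * (1 - σ ^ 2) * RootGen.tp σ v ^ 2) :=
  ((((Rep.int 2).mul h.rep_e).mul h.rep_x).sub ((Rep.int 1).add h.rep_e)).congr
    (by push_cast; ring)

lemma rep_l2 :
    Rep σ v l2R (-(10 - 3 * (1 - σ ^ 2)) + 4 * (1 - σ ^ 2) * RootGen.tp σ v ^ 2) :=
  ((((Rep.int 4).mul h.rep_e).mul h.rep_x).sub
    ((Rep.int 10).sub ((Rep.int 3).mul h.rep_e))).congr (by push_cast; ring)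

lemma rep_e1 : Rep σ v e1R
    (RootGen.tp σ v ^ 2 * (gB σ).Q1 (RootGen.tp σ v ^ 2) - (gB σ).Q (RootGen.tp σ v ^ 2)) :=
  (h.rep_x.mul h.rep_q1).sub h.rep_q0

lemma rep_half : Rep σ v hR (1 / 2) := (Rep.ofQ 1 two_pos).congr (by norm_num)

lemma rep_n0 : Rep σ v n0R (Tan.n0 (1 - σ ^ 2) (gB σ) (RootGen.tp σ v ^ 2)) :=
  (((((Rep.int 2).mul h.rep_b).mul (h.rep_y.pow 4)).add
    ((h.rep_w.mul h.rep_y).mul h.rep_e1)).add (h.rep_half.mul (h.rep_nq.mul h.rep_q0))).congr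
    (by simp only [Tan.n0]; push_cast; ring)

lemma rep_n1 : Rep σ v n1R (Tan.n1 (1 - σ ^ 2) (gB σ) (RootGen.tp σ v ^ 2)) :=
  (((((((Rep.int (-8)).mul h.rep_e).mul h.rep_b).mul (h.rep_y.pow 3)).add
    (h.rep_lw.mul h.rep_e1)).add ((h.rep_w.mul h.rep_y).mul (h.rep_x.mul h.rep_q2))).add
      (h.rep_half.mul ((h.rep_l2.mul h.rep_q0).add (h.rep_nq.mul h.rep_q1)))).congr
    (by simp only [Tan.n1]; push_cast; ring)

lemma rep_n2 : Rep σ v n2R (Tan.n2 (1 - σ ^ 2) (gB σ) (RootGen.tp σ v ^ 2)) :=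
  (((((((((Rep.int 24).mul (h.rep_e.pow 2)).mul h.rep_b).mul (h.rep_y.pow 2)).add
    (((Rep.int 2).mul h.rep_e).mul h.rep_e1)).add
      (((Rep.int 2).mul h.rep_lw).mul (h.rep_x.mul h.rep_q2))).add
        ((h.rep_w.mul h.rep_y).mul (h.rep_q2.add (h.rep_x.mul h.rep_q3)))).add
          ((((Rep.int 2).mul h.rep_e).mul h.rep_q0).add (h.rep_l2.mul h.rep_q1))).add
            (h.rep_half.mul (h.rep_nq.mul h.rep_q2))).congr
    (by simp only [Tan.n2]; push_cast; ring)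

lemma rep_5 : Rep σ v (RE.ofQ 1 5) (1 / 5) := (Rep.ofQ 1 (by norm_num)).congr (by norm_num)

lemma rep_25 : Rep σ v (RE.ofQ 2 5) (2 / 5) := (Rep.ofQ 2 (by norm_num)).congr (by norm_num)

lemma rep_w0 : Rep σ v w0R (Tan.wx (1 - σ ^ 2) (gB σ) (RootGen.tp σ v ^ 2)) :=
  ((((Rep.int 1).add (h.rep_e.mul h.rep_x)).mul h.rep_iy).sub
    (h.rep_5.mul (h.rep_n0.mul h.rep_ix))).congr
    (by simp only [Tan.wx, div_eq_mul_inv, mul_inv]; push_cast; ring)

lemma rep_w1 : Rep σ v w1R (Tan.wx1 (1 - σ ^ 2) (gB σ) (RootGen.tp σ v ^ 2)) :=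
  (((((Rep.int 2).mul h.rep_e).mul (h.rep_iy.pow 2)).sub
    (h.rep_5.mul (h.rep_n1.mul h.rep_ix))).add
      (h.rep_5.mul (h.rep_n0.mul (h.rep_ix.pow 2)))).congr
    (by simp only [Tan.wx1, div_eq_mul_inv, mul_inv, inv_pow]; push_cast; ring)

lemma rep_w2 : Rep σ v w2R (Tan.wx2 (1 - σ ^ 2) (gB σ) (RootGen.tp σ v ^ 2)) :=
  ((((((Rep.int 4).mul (h.rep_e.pow 2)).mul (h.rep_iy.pow 3)).sub
    (h.rep_5.mul (h.rep_n2.mul h.rep_ix))).add
      (h.rep_25.mul (h.rep_n1.mul (h.rep_ix.pow 2)))).sub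
        (h.rep_25.mul (h.rep_n0.mul (h.rep_ix.pow 3)))).congr
    (by simp only [Tan.wx2, div_eq_mul_inv, mul_inv, inv_pow]; push_cast; ring)

lemma rep_c5 : Rep σ v c5R (3 + 5 * (1 - σ ^ 2) * RootGen.tp σ v ^ 2) :=
  ((Rep.int 3).add (((Rep.int 5).mul h.rep_e).mul h.rep_x)).congr (by push_cast; ring)

lemma rep_G : Rep σ v pxR (ptB σ v).G :=
  (((h.rep_q0.mul h.rep_ix).add ((Rep.int 2).mul h.rep_w1)).add
    ((h.rep_c5.mul h.rep_w0).mul (h.rep_ix.mul h.rep_iy))).congr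
    (by simp only [ptB, ptIn, Tan.wtOf, Tan.px, div_eq_mul_inv, mul_inv]; push_cast; ring)

lemma rep_px1 : Rep σ v px1R (Tan.px1 (1 - σ ^ 2) (gB σ) (RootGen.tp σ v ^ 2)) :=
  (((((h.rep_q1.mul h.rep_ix).sub (h.rep_q0.mul (h.rep_ix.pow 2))).add
    ((Rep.int 2).mul h.rep_w2)).add ((h.rep_c5.mul h.rep_w1).mul (h.rep_ix.mul h.rep_iy))).add
    (((((Rep.int 5).mul h.rep_e).mul (h.rep_x.mul h.rep_y)).sub
      (h.rep_c5.mul ((Rep.int 1).sub (((Rep.int 2).mul h.rep_e).mul h.rep_x)))).mul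
        (h.rep_w0.mul ((h.rep_ix.mul h.rep_iy).pow 2)))).congr
    (by simp only [Tan.px1, div_eq_mul_inv, mul_inv, inv_pow, mul_pow]; push_cast; ring)

lemma rep_p1 : Rep σ v p1R
    (2 * RootGen.tp σ v * Tan.px1 (1 - σ ^ 2) (gB σ) (RootGen.tp σ v ^ 2)) :=
  (((Rep.int 2).mul h.rep_t).mul h.rep_px1).congr (by push_cast; ring)

lemma rep_U : Rep σ v uR (ptB σ v).U :=
  ((h.rep_w0.mul h.rep_it).sub (h.rep_t.mul h.rep_G)).congr
    (by simp only [ptB, ptIn, Tan.wtOf, div_eq_mul_inv])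

lemma yf_eq : yf (1 - σ ^ 2) (RootGen.tp σ v) = Tan.yl (1 - σ ^ 2) (RootGen.tp σ v ^ 2) := rfl

lemma rep_U1 : Rep σ v u1R (ptB σ v).U' :=
  ((h.rep_half.mul h.rep_y).mul ((((Rep.int 2).mul h.rep_w1).sub (h.rep_w0.mul h.rep_ix)).sub
    (h.rep_G.add (h.rep_t.mul h.rep_p1)))).congr
    (by simp only [ptB, ptIn, Tan.wtOf, h.yf_eq, div_eq_mul_inv]; push_cast; ring)

lemma rep_G1 : Rep σ v g1R (ptB σ v).G' :=
  ((h.rep_half.mul h.rep_y).mul h.rep_p1).congr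
    (by simp only [ptB, ptIn, Tan.wtOf, h.yf_eq, div_eq_mul_inv]; ring)

lemma rep_p : Rep σ v pR (ptB σ v).p :=
  ((h.rep_half.mul h.rep_it).mul ((Rep.int 1).add (h.rep_e.mul h.rep_x))).congr
    (by simp only [ptB, ptIn, div_eq_mul_inv, mul_inv]; push_cast; ring)

lemma rep_g : Rep σ v gR (ptB σ v).g :=
  ((h.rep_half.mul h.rep_it).mul h.rep_y).congr
    (by simp only [ptB, ptIn, h.yf_eq, div_eq_mul_inv, mul_inv]; ring)

end Param

end Vale.Agent.P219.CH.Relax.Six.CandB
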