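import Vale.Agent.P219.Relax.Poly.Bernstein

/-!
# P219, dimension six: the denominators of the candidate

The free coefficients of the candidate are fractions of polynomials in `σ` over one denominator.
Polynomials are expressions in `σ` and the parameter `v`.
-/

namespace Vale.Agent.P219.CH.Relax.Six.CandB

open Vale.Agent.P219.Poly (E)

/-- A polynomial in `σ` from its coefficients. -/
def horner : List ℤ → E
  | [] => .k 0
  | [a] => .k a
  | a :: l => .add (.k a) (.mul (.x 0) (horner l))

/-- The common denominator. -/
def dL : List ℤ :=
  [6237000, 6237000, 32482900, 32482900, 79921800, 7345800, -207072500, -25486900, 72151600,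
    19081200, -7383300, -21154500, -1062000, 4914000, 706500, 706500, -54000, -54000]

/-- The numerator of the coefficient of `ω ^ (-2)`, times `σ ^ 2`. -/
def c1L : List ℤ :=
  [-138006, -138006, -7470120, -7470120, 29379338, 29379338, -118135964, -36220664, 241394852,
    -64305442, -85247042, 7951264, 3112032, 23931750, -9771210, -6097320, 2878200, -1938960,
    1130400, 146880, -86400]

/-- The numerator of the coefficient of `ω ^ (-1)`, times `σ ^ 3`. -/
def c2L : List ℤ :=
  [-9061580, -9061580, -33348092, -33348092, -136627079, -28952839, 531968715, 96100467,
    -599499428, 40174804, 198213314, 19154170, -11618175, -45522375, 8778105, 12602745, -3927420,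
    943380, 1087560, -886680, -90720, 64800]

/-- The numerator of the coefficient of `ω ^ 3`, times `σ ^ 5`. -/
def bL : List ℤ :=
  [-5817420, -5817420, 4972316, 4169372, -99442325, -25862381, 240189743, -10240417, -145459922,
    37586686, 33932838, -30382530, 876375, 2102895, -3171375, 10197945, -9739350, -415350, 4144320,
    -1252800]

/-- The common denominator as an expression. -/
def dE : E := horner dL

end Vale.Agent.P219.CH.Relax.Six.CandB
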