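import Vale.Agent.P219.Relax.Six.CandB.Row

/-!
# P219, dimension six: checked lists have nonnegative Bernstein coefficients
-/

noncomputable section

open Set

namespace Vale.Agent.P219.CH.Relax.Six.CandB

open Vale.Agent.P219.Poly (E)

/-- All coefficients on a cell pass; those listed on six charts. -/
def bernOk (n : ℕ) (L : RE) (p : List RE) (six : List ℕ) : Bool :=
  (List.range (n + 1)).all fun j =>
    if six.contains j then okSq (RE.bco n L p j) else okR (RE.bco n L p j)

/-- All coefficients pass where `1 / 2 < t`; those listed on six charts. -/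
def midOk (p : List RE) (six : List ℕ) : Bool :=
  (List.range 7).all fun j =>
    if six.contains j then E.midCheck E.check2 (RE.bco 6 (tR.sub hR) p j).num
    else E.check2 (E.cM.app (RE.bco 6 (tR.sub hR) p j).num)

namespace Param

variable {σ v : ℝ} (h : Param σ v)
include h

lemma bern {n : ℕ} {L : RE} {l : ℝ} {p : List RE} {P : List ℝ} {six : List ℕ}
    (hL : Rep σ v L l) (hp : Reps σ v p P) (hc : bernOk n L p six = true) : Red.Bern n l P := by
  intro j hj
  have hj' := List.all_eq_true.1 hc j (List.mem_range.2 (Nat.lt_succ_of_le hj))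
  have hr := Reps.bco hL hp hj
  split at hj'
  · exact h.nonneg_sq hr hj'
  · exact h.nonneg_ok hr hj'

lemma v_mid (ht : 1 / 2 < RootGen.tp σ v) : (1 + σ) / 4 ≤ v := by
  rw [RootGen.tp, lt_div_iff₀ (RootGen.den_pos h.hσ v), RootGen.den] at ht
  linarith [mul_nonneg (sub_nonneg.2 h.hσ.2.le) (sq_nonneg v)]

lemma bern_mid {p : List RE} {P : List ℝ} {six : List ℕ} (hp : Reps σ v p P)
    (hc : midOk p six = true) (ht : 1 / 2 < RootGen.tp σ v) :
    Red.Bern 6 ((2 * RootGen.tp σ v - 1) / 2) P := by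
  intro j hj
  have hj' := List.all_eq_true.1 hc j (List.mem_range.2 (Nat.lt_succ_of_le hj))
  have hr := Reps.bco ((h.rep_t.sub h.rep_half).congr (y := (2 * RootGen.tp σ v - 1) / 2) (by ring))
    hp hj
  refine hr.nonneg (h.val_pos _) ?_
  have hv := h.v_mid ht
  split at hj'
  · exact E.mid_nonneg sound2 hj' ⟨h.hσ.1.le, h.hσ.2.le⟩ ⟨hv, h.hv.2⟩
  · exact E.mid_nonneg_one sound2 hj' ⟨h.hσ.1.le, h.hσ.2.le⟩ ⟨hv, h.hv.2⟩

end Param

end Vale.Agent.P219.CH.Relax.Six.CandB
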