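import Vale.Agent.P219.Relax.Six.CandB.Part.Mixed
import Vale.Agent.P219.Relax.Six.CandB.Part.Outward

/-!
# P219, dimension six: the scalar conditions and the fixed cells of the candidate
-/

noncomputable section

open Set

namespace Vale.Agent.P219.CH.Relax.Six.CandB

open Vale.Agent.P219.Poly (E)

namespace Param

variable {σ v : ℝ} (h : Param σ v)
include h

lemma weight_pos : 0 < (ptB σ v).U + (ptB σ v).G :=
  h.pos_strict (h.rep_U.add h.rep_G) (by decide +kernel)

lemma slope_neg : (ptB σ v).G < 0 :=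
  neg_pos.1 (h.pos_strict h.rep_G.neg (by decide +kernel))

lemma mono : 0 ≤ (ptB σ v).U' + 4 * (ptB σ v).p * (ptB σ v).U :=
  h.nonneg_ok ((h.rep_U1.add (((Rep.int 4).mul h.rep_p).mul h.rep_U)).congr (by simp))
    (by decide +kernel)

lemma conv0 : 0 ≤ k0 (ptB σ v) := h.nonneg_ok h.rep_k0 (by decide +kernel)

lemma convex : 0 < (2 + RootGen.tp σ v) * k0 (ptB σ v) + RootGen.tp σ v * k1 (ptB σ v) :=
  h.pos_strict h.rep_c1 (by decide +kernel)

lemma down : slope (ptB σ v) (RootGen.tp σ v) ≤ 0 :=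
  neg_nonneg.1 (h.nonneg_ok h.rep_sl.neg (by decide +kernel))

lemma low : 0 < 1 + ((ptB σ v).U' + 4 * (ptB σ v).p * (ptB σ v).U +
    (ptB σ v).g * (ptB σ v).G) :=
  h.pos_strict (((Rep.int 1).add
    ((h.rep_U1.add (((Rep.int 4).mul h.rep_p).mul h.rep_U)).add h.rep_gG)).congr (by simp))
    (by decide +kernel)

lemma weight : 0 < 1 + (5 * (ptB σ v).p - (ptB σ v).g) * (ptB σ v).U + 5 * (ptB σ v).G :=
  h.pos_strict ((((Rep.int 1).add ((((Rep.int 5).mul h.rep_p).sub h.rep_g).mul h.rep_U)).add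
    ((Rep.int 5).mul h.rep_G)).congr (by simp)) (by decide +kernel)

lemma slope' : (ptB σ v).G' ≤ 5 * (ptB σ v).U :=
  sub_nonneg.1 (h.nonneg_ok ((((Rep.int 5).mul h.rep_U).sub h.rep_G1).congr (by simp))
    (by decide +kernel))

lemma zero : Red.Bern 3 1 (Red.zeroL (ptB σ v)) :=
  h.bern h.rep_one h.reps_zero (six := []) (by decide +kernel)

lemma endHi : Red.Bern 3 (1 - RootGen.tp σ v)
    (Red.endHiL (concQ (1 - σ ^ 2)) (ptB σ v) (RootGen.tp σ v)) :=
  h.bern h.rep_ow h.reps_endHi (six := []) (by decide +kernel)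

end Param

end Vale.Agent.P219.CH.Relax.Six.CandB
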