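import Vale.Agent.P219.Relax.Six.CandB.Part.GainOk
import Vale.Agent.P219.Relax.Six.CandB.Part.GainEndOk
import Vale.Agent.P219.Relax.Six.CandB.Part.Gd2a
import Vale.Agent.P219.Relax.Six.CandB.Part.Gd2b
import Vale.Agent.P219.Relax.Six.CandB.Part.Gd3a
import Vale.Agent.P219.Relax.Six.CandB.Part.Gd3b
import Vale.Agent.P219.Relax.Six.CandB.Part.Ge1a
import Vale.Agent.P219.Relax.Six.CandB.Part.Ge1b
import Vale.Agent.P219.Relax.Six.CandB.Part.Ge2a
import Vale.Agent.P219.Relax.Six.CandB.Part.Ge2b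
import Vale.Agent.P219.Relax.Six.CandB.Part.Ge3a
import Vale.Agent.P219.Relax.Six.CandB.Part.Ge3b

/-!
# P219, dimension six: the cells of the two gains
-/

noncomputable section

open Set

namespace Vale.Agent.P219.CH.Relax.Six.CandB

open Vale.Agent.P219.Poly (E)

lemma good_of_charts {a : RE} (h1 : E.check2 (E.cD1.app a.num) = true)
    (h2 : E.check2 (E.cD2.app a.num) = true) (h3 : E.check2 (E.cCa.app a.num) = true)
    (h4 : E.check2 (E.cCb.app a.num) = true) (h5 : E.check2 (E.cCc.app a.num) = true)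
    (h6 : E.check2 (E.cCd.app a.num) = true) : Good a :=
  good_of_sq (by simp only [okSq, E.squareCheck, E.cornerCheck, h1, h2, h3, h4, h5, h6, Bool.and_self])

lemma gd2 : Good (RE.bco 3 owR (RE.sb tR (iR 1) diagR) 2) :=
  good_of_charts gd2_cD1 gd2_cD2 gd2_cCa gd2_cCb gd2_cCc gd2_cCd

lemma gd3 : Good (RE.bco 3 owR (RE.sb tR (iR 1) diagR) 3) :=
  good_of_charts gd3_cD1 gd3_cD2 gd3_cCa gd3_cCb gd3_cCc gd3_cCd

lemma ge1 : Good (RE.bco 3 owR (RE.sb tR (iR 1) endGainR) 1) :=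
  good_of_charts ge1_cD1 ge1_cD2 ge1_cCa ge1_cCb ge1_cCc ge1_cCd

lemma ge2 : Good (RE.bco 3 owR (RE.sb tR (iR 1) endGainR) 2) :=
  good_of_charts ge2_cD1 ge2_cD2 ge2_cCa ge2_cCb ge2_cCc ge2_cCd

lemma ge3 : Good (RE.bco 3 owR (RE.sb tR (iR 1) endGainR) 3) :=
  good_of_charts ge3_cD1 ge3_cD2 ge3_cCa ge3_cCb ge3_cCc ge3_cCd

namespace Param

variable {σ v : ℝ} (h : Param σ v)
include h

lemma rep_zero : Rep σ v (iR 0) (0 : ℝ) := (Rep.int 0).congr (by simp)

lemma gainDiag : Red.CutBern 3 (Red.diagL (ptB σ v)) 0 [RootGen.tp σ v, 1] :=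
  ⟨h.bern ((h.rep_t).congr (sub_zero _).symm) (Reps.sb h.rep_zero h.rep_one h.reps_diag) gd_near,
    h.bern_good h.rep_ow (Reps.sb h.rep_t h.rep_one h.reps_diag) fun j hj => by
      interval_cases j
      exacts [gd0, gd1, gd2, gd3],
    trivial⟩

lemma gainEnd :
    Red.CutBern 3 (Red.endGainL (ptB σ v)) 0 [RootGen.tp σ v ^ 2, RootGen.tp σ v, 1] :=
  ⟨h.bern (h.rep_x.congr (sub_zero _).symm) (Reps.sb h.rep_zero h.rep_one h.reps_endGain) ge_near,
    h.bern (h.rep_t.sub h.rep_x) (Reps.sb h.rep_x h.rep_one h.reps_endGain) ge_mid,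
    h.bern_good h.rep_ow (Reps.sb h.rep_t h.rep_one h.reps_endGain) fun j hj => by
      interval_cases j
      exacts [ge0, ge1, ge2, ge3],
    trivial⟩

end Param

end Vale.Agent.P219.CH.Relax.Six.CandB
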