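import Vale.Agent.P219.Relax.Six.CandB.CheckC0
import Vale.Agent.P219.Relax.Six.CandB.CheckC1
import Vale.Agent.P219.Relax.Six.CandB.CheckC2

/-!
# P219, dimension six: the cells short of the contact
-/

noncomputable section

open Set

namespace Vale.Agent.P219.CH.Relax.Six.CandB

lemma Param.endLo {σ v : ℝ} (h : Param σ v) : Red.CutBern 5
    (Red.endLoL (concQ (1 - σ ^ 2)) (ptB σ v) (RootGen.tp σ v)) 0
    [RootGen.tp σ v ^ 7, RootGen.tp σ v ^ 3, RootGen.tp σ v] :=
  ⟨h.bern_good ((h.rep_t.pow 7).congr (sub_zero _).symm)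
      (Reps.sb ((Rep.int 0).congr (by simp)) h.rep_one h.reps_endLo) fun j hj => by
      interval_cases j
      exacts [lo0_0, lo0_1, lo0_2, lo0_3, lo0_4, lo0_5],
    h.bern_good ((h.rep_t.pow 3).sub (h.rep_t.pow 7))
      (Reps.sb (h.rep_t.pow 7) h.rep_one h.reps_endLo) fun j hj => by
      interval_cases j
      exacts [lo1_0, lo1_1, lo1_2, lo1_3, lo1_4, lo1_5],
    h.bern_good (h.rep_t.sub (h.rep_t.pow 3))
      (Reps.sb (h.rep_t.pow 3) h.rep_one h.reps_endLo) fun j hj => by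
      interval_cases j
      exacts [lo2_0, lo2_1, lo2_2, lo2_3, lo2_4, lo2_5],
    trivial⟩

end Vale.Agent.P219.CH.Relax.Six.CandB
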