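import Vale.Agent.P219.Relax.Six.CandB.CheckD0
import Vale.Agent.P219.Relax.Six.CandB.CheckD1

/-!
# P219, dimension six: the middle conditions
-/

noncomputable section

open Set

namespace Vale.Agent.P219.CH.Relax.Six.CandB

namespace Param

variable {σ v : ℝ} (h : Param σ v)
include h

lemma midA (ht : 1 / 2 < RootGen.tp σ v) : Red.Bern 6 ((2 * RootGen.tp σ v - 1) / 2)
    (Red.midAL (concQ (1 - σ ^ 2)) (ptB σ v) (RootGen.tp σ v)) :=
  h.bern_goodMid h.reps_midA (fun j hj => by
    interval_cases j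
    exacts [midA_0, midA_1, midA_2, midA_3, midA_4, midA_5, midA_6]) ht

lemma midB (ht : 1 / 2 < RootGen.tp σ v) : Red.Bern 6 ((2 * RootGen.tp σ v - 1) / 2)
    (Red.midBL (concQ (1 - σ ^ 2)) (ptB σ v) (RootGen.tp σ v)) :=
  h.bern_goodMid h.reps_midB (fun j hj => by
    interval_cases j
    exacts [midB_0, midB_1, midB_2, midB_3, midB_4, midB_5, midB_6]) ht

end Param

end Vale.Agent.P219.CH.Relax.Six.CandB
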