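import Vale.Agent.P219.Relax.Six.CandB.Part.MidA0
import Vale.Agent.P219.Relax.Six.CandB.Part.MidA2
import Vale.Agent.P219.Relax.Six.CandB.Part.MidA4
import Vale.Agent.P219.Relax.Six.CandB.Part.MidA6

/-!
# P219, dimension six: the first middle condition

The seven coefficients are checked in separate modules.
-/

noncomputable section

open Set

namespace Vale.Agent.P219.CH.Relax.Six.CandB

open Vale.Agent.P219.Poly (E)

end Vale.Agent.P219.CH.Relax.Six.CandB
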