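import Vale.Agent.P219.Relax.Six.Cand.Def
import Vale.Agent.P219.Relax.Six.InRed

/-!
# P219, dimension six: reflective fractions in the parameters

A number is represented by a polynomial numerator over a natural number times powers of seven
factors, all positive on the parameter square. Sums take the larger exponents, so no cancellation
is ever needed, and a sign is decided on the numerator.
-/

namespace Vale.Agent.P219.CH.Relax.Six.CandB

open Vale.Agent.P219.Poly (E)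

/-- The exponents of `σ`, `v`, the common denominator, `den`, the numerator of `om`, `4 - 3 σ ^ 2`
and the numerator of the concavity factor at the contact. -/
structure Ex where
  s : ℕ
  v : ℕ
  d : ℕ
  n : ℕ
  o : ℕ
  a : ℕ
  z : ℕ

/-- No factor. -/
def Ex.zero : Ex := ⟨0, 0, 0, 0, 0, 0, 0⟩

/-- The larger exponents. -/
def Ex.sup (e f : Ex) : Ex :=
  ⟨max e.s f.s, max e.v f.v, max e.d f.d, max e.n f.n, max e.o f.o, max e.a f.a, max e.z f.z⟩

/-- The product. -/
def Ex.add (e f : Ex) : Ex :=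
  ⟨e.s + f.s, e.v + f.v, e.d + f.d, e.n + f.n, e.o + f.o, e.a + f.a, e.z + f.z⟩

/-- The quotient. -/
def Ex.sub (e f : Ex) : Ex :=
  ⟨e.s - f.s, e.v - f.v, e.d - f.d, e.n - f.n, e.o - f.o, e.a - f.a, e.z - f.z⟩

/-- `den`. -/
def nE : E := .add (.add (.k 1) (.x 0)) (.mul (.bar 0) (.pow (.x 1) 2))

/-- The numerator of `om`. -/
def oE : E := .add (.add (.k 1) (.x 0)) (.neg (.mul (.bar 0) (.pow (.x 1) 2)))

/-- `4 - 3 σ ^ 2`. -/
def aE : E := .add (.k 4) (.mul (.k (-3)) (.pow (.x 0) 2))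

/-- `e = 1 - σ ^ 2`. -/
def eE : E := .add (.k 1) (.neg (.pow (.x 0) 2))

/-- The numerator of the concavity factor at the contact. -/
def zE : E := .add (.mul aE (.pow nE 2)) (.mul (.k (-16)) (.mul eE (.pow (.x 1) 2)))

/-- The product of the factors as an expression. -/
def Ex.expr (e : Ex) : E :=
  .mul (.mul (.mul (.pow (.x 0) e.s) (.pow (.x 1) e.v)) (.mul (.pow dE e.d) (.pow nE e.n)))
    (.mul (.mul (.pow oE e.o) (.pow aE e.a)) (.pow zE e.z))

/-- The parameters as an environment. -/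
def env (σ v : ℝ) : Fin 3 → ℝ := ![σ, v, 0]

lemma env_zero (σ v : ℝ) : env σ v 0 = σ := rfl

lemma env_one (σ v : ℝ) : env σ v 1 = v := rfl

/-- The product of the factors. -/
noncomputable def Ex.val (σ v : ℝ) (e : Ex) : ℝ := E.sem (env σ v) e.expr

lemma Ex.val_add (σ v : ℝ) (e f : Ex) : (e.add f).val σ v = e.val σ v * f.val σ v := by
  simp only [val, expr, add, E.sem, pow_add]
  ring

lemma Ex.val_zero (σ v : ℝ) : Ex.zero.val σ v = 1 := by
  simp [val, expr, zero, E.sem]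

lemma Ex.val_sub {e f : Ex} (σ v : ℝ) (hs : f.s ≤ e.s) (hv : f.v ≤ e.v) (hd : f.d ≤ e.d)
    (hn : f.n ≤ e.n) (ho : f.o ≤ e.o) (ha : f.a ≤ e.a) (hz : f.z ≤ e.z) :
    (e.sub f).val σ v * f.val σ v = e.val σ v := by
  rw [← Ex.val_add]
  simp [Ex.sub, Ex.add, Nat.sub_add_cancel, *]

lemma Ex.val_sub_left (σ v : ℝ) (e f : Ex) :
    ((e.sup f).sub e).val σ v * e.val σ v = (e.sup f).val σ v :=
  val_sub σ v (le_max_left _ _) (le_max_left _ _) (le_max_left _ _) (le_max_left _ _)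
    (le_max_left _ _) (le_max_left _ _) (le_max_left _ _)

lemma Ex.val_sub_right (σ v : ℝ) (e f : Ex) :
    ((e.sup f).sub f).val σ v * f.val σ v = (e.sup f).val σ v :=
  val_sub σ v (le_max_right _ _) (le_max_right _ _) (le_max_right _ _) (le_max_right _ _)
    (le_max_right _ _) (le_max_right _ _) (le_max_right _ _)

/-- A fraction. -/
structure RE where
  num : E
  ex : Ex
  k : ℕ

namespace RE

/-- An integer over a natural number. -/
def ofQ (z : ℤ) (n : ℕ) : RE := ⟨.k z, Ex.zero, n⟩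

/-- A polynomial. -/
def ofE (p : E) : RE := ⟨p, Ex.zero, 1⟩

/-- The negative. -/
def neg (a : RE) : RE := ⟨.neg a.num, a.ex, a.k⟩

/-- The numerator over larger exponents and a multiple of the constant. -/
def lift (a : RE) (d : Ex) (k : ℕ) : E :=
  .mul (.mul (.k (k / a.k : ℕ)) (d.sub a.ex).expr) a.num

/-- The sum. -/
def add (a b : RE) : RE :=
  ⟨.add (lift a (a.ex.sup b.ex) (Nat.lcm a.k b.k)) (lift b (a.ex.sup b.ex) (Nat.lcm a.k b.k)),
    a.ex.sup b.ex, Nat.lcm a.k b.k⟩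

/-- The difference. -/
def sub (a b : RE) : RE := add a (neg b)

/-- The product. -/
def mul (a b : RE) : RE := ⟨.mul a.num b.num, a.ex.add b.ex, a.k * b.k⟩

/-- A natural power. -/
def pow (a : RE) : ℕ → RE
  | 0 => ofQ 1 1
  | 1 => a
  | n + 1 => mul a (pow a n)

/-- The sum of the first `n` values. -/
def sum (f : ℕ → RE) : ℕ → RE
  | 0 => ofQ 0 1
  | n + 1 => add (sum f n) (f n)

end RE

/-- `a` represents `x` at the parameters. -/
def Rep (σ v : ℝ) (a : RE) (x : ℝ) : Prop :=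
  0 < a.k ∧ E.sem (env σ v) a.num = x * ((a.k : ℝ) * a.ex.val σ v)

namespace Rep

variable {σ v x y : ℝ} {a b : RE}

lemma congr (h : Rep σ v a x) (e : x = y) : Rep σ v a y := e ▸ h

lemma ofQ (z : ℤ) {n : ℕ} (hn : 0 < n) : Rep σ v (RE.ofQ z n) ((z : ℝ) / n) := by
  refine ⟨hn, ?_⟩
  simp [RE.ofQ, E.sem, Ex.val_zero, hn.ne']

lemma int (z : ℤ) : Rep σ v (RE.ofQ z 1) (z : ℝ) := (ofQ z one_pos).congr (by simp)

lemma ofE (p : E) : Rep σ v (RE.ofE p) (E.sem (env σ v) p) := by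
  refine ⟨one_pos, ?_⟩
  simp [RE.ofE, Ex.val_zero]

lemma neg (h : Rep σ v a x) : Rep σ v a.neg (-x) := by
  refine ⟨h.1, ?_⟩
  simp only [RE.neg, E.sem, h.2, neg_mul]

lemma lift (h : Rep σ v a x) {d : Ex} {k : ℕ} (hk : a.k ∣ k)
    (hd : (d.sub a.ex).val σ v * a.ex.val σ v = d.val σ v) :
    E.sem (env σ v) (a.lift d k) = x * ((k : ℝ) * d.val σ v) := by
  obtain ⟨m, rfl⟩ := hk
  simp only [RE.lift, E.sem, Nat.mul_div_cancel_left _ h.1, h.2]
  rw [← hd]
  simp only [Ex.val]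
  push_cast
  ring

lemma add (ha : Rep σ v a x) (hb : Rep σ v b y) : Rep σ v (a.add b) (x + y) := by
  refine ⟨Nat.pos_of_ne_zero (Nat.lcm_ne_zero ha.1.ne' hb.1.ne'), ?_⟩
  simp only [RE.add, E.sem, ha.lift (Nat.dvd_lcm_left _ _) (Ex.val_sub_left ..),
    hb.lift (Nat.dvd_lcm_right _ _) (Ex.val_sub_right ..)]
  ring

lemma sub (ha : Rep σ v a x) (hb : Rep σ v b y) : Rep σ v (a.sub b) (x - y) :=
  (ha.add hb.neg).congr (sub_eq_add_neg x y).symm

lemma mul (ha : Rep σ v a x) (hb : Rep σ v b y) : Rep σ v (a.mul b) (x * y) := by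
  refine ⟨Nat.mul_pos ha.1 hb.1, ?_⟩
  simp only [RE.mul, E.sem, ha.2, hb.2, Ex.val_add]
  push_cast
  ring

lemma pow (ha : Rep σ v a x) : ∀ n : ℕ, Rep σ v (a.pow n) (x ^ n)
  | 0 => (int 1).congr (by simp)
  | 1 => ha.congr (pow_one x).symm
  | n + 2 => (ha.mul (pow ha (n + 1))).congr (pow_succ' x (n + 1)).symm

lemma sum {f : ℕ → RE} {g : ℕ → ℝ} : ∀ {n : ℕ}, (∀ i < n, Rep σ v (f i) (g i)) →
    Rep σ v (RE.sum f n) (∑ i ∈ Finset.range n, g i)
  | 0, _ => (int 0).congr (by simp)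
  | n + 1, h => ((sum fun i hi => h i (Nat.lt_succ_of_lt hi)).add (h n n.lt_succ_self)).congr
      (Finset.sum_range_succ g n).symm

lemma nonneg (h : Rep σ v a x) (hp : 0 < a.ex.val σ v) (hn : 0 ≤ E.sem (env σ v) a.num) :
    0 ≤ x := nonneg_of_mul_nonneg_left (h.2 ▸ hn) (mul_pos (Nat.cast_pos.2 h.1) hp)

lemma pos (h : Rep σ v a x) (hp : 0 < a.ex.val σ v) (hn : 0 < E.sem (env σ v) a.num) :
    0 < x :=
  pos_of_mul_pos_left (h.2 ▸ hn) (mul_pos (Nat.cast_pos.2 h.1) hp).le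

lemma eq_zero (h : Rep σ v a x) (hp : 0 < a.ex.val σ v) (hn : E.sem (env σ v) a.num = 0) :
    x = 0 :=
  (mul_eq_zero.1 (h.2 ▸ hn)).resolve_right (mul_pos (Nat.cast_pos.2 h.1) hp).ne'

end Rep

/-! ## Lists -/

namespace RE

/-- The sum of lists. -/
def ad : List RE → List RE → List RE
  | [], q => q
  | p, [] => p
  | a :: p, b :: q => add a b :: ad p q

/-- A multiple. -/
def sc (k : RE) : List RE → List RE
  | [] => []
  | a :: p => mul k a :: sc k p

/-- The product of lists. -/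
def mu : List RE → List RE → List RE
  | [], _ => []
  | [a], q => sc a q
  | a :: b :: p, q => ad (sc a q) (ofQ 0 1 :: mu (b :: p) q)

/-- The substitution of `u + w * x`. -/
def sb (u w : RE) : List RE → List RE
  | [] => []
  | a :: p => ad [a] (mu [u, w] (sb u w p))

/-- The coefficient `j` in the Bernstein basis of degree `n` on `[0, L]`. -/
def bco (n : ℕ) (L : RE) (p : List RE) (j : ℕ) : RE :=
  sum (fun k => mul (ofQ (j.choose k) (n.choose k)) (mul (p.getD k (ofQ 0 1)) (pow L k))) (j + 1)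

end RE

/-- Two lists correspond entry by entry. -/
inductive Reps (σ v : ℝ) : List RE → List ℝ → Prop
  | nil : Reps σ v [] []
  | cons {a x p q} : Rep σ v a x → Reps σ v p q → Reps σ v (a :: p) (x :: q)

namespace Reps

variable {σ v : ℝ}

lemma ad : ∀ {p q P Q}, Reps σ v p P → Reps σ v q Q → Reps σ v (RE.ad p q) (Red.ad P Q)
  | _, _, _, _, .nil, h => by simpa [RE.ad, Red.ad] using h
  | _, _, _, _, .cons ha hp, .nil => by simpa [RE.ad, Red.ad] using Reps.cons ha hp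
  | _, _, _, _, .cons ha hp, .cons hb hq => .cons (ha.add hb) (ad hp hq)

lemma sc {k : RE} {c : ℝ} (hk : Rep σ v k c) : ∀ {p P}, Reps σ v p P →
    Reps σ v (RE.sc k p) (Red.sc c P)
  | _, _, .nil => .nil
  | _, _, .cons ha hp => .cons (hk.mul ha) (sc hk hp)

lemma mu : ∀ {p q P Q}, Reps σ v p P → Reps σ v q Q → Reps σ v (RE.mu p q) (Red.mu P Q)
  | _, _, _, _, .nil, _ => .nil
  | _, _, _, _, .cons ha .nil, h => sc ha h
  | _, _, _, _, .cons ha (.cons hb hp), h =>
    ad (sc ha h) (.cons ((Rep.int 0).congr (by simp)) (mu (.cons hb hp) h))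

lemma sb {u w : RE} {a b : ℝ} (hu : Rep σ v u a) (hw : Rep σ v w b) : ∀ {p P}, Reps σ v p P →
    Reps σ v (RE.sb u w p) (Red.sb a b P)
  | _, _, .nil => .nil
  | _, _, .cons ha hp => ad (.cons ha .nil) (mu (.cons hu (.cons hw .nil)) (sb hu hw hp))

lemma getD : ∀ {p P}, Reps σ v p P → ∀ k, Rep σ v (p.getD k (RE.ofQ 0 1)) (P.getD k 0)
  | _, _, .nil, _ => (Rep.int 0).congr (by simp)
  | _, _, .cons ha _, 0 => by simpa using ha
  | _, _, .cons _ hp, k + 1 => by simpa using getD hp k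

lemma bco {L : RE} {l : ℝ} (hL : Rep σ v L l) {p P} (h : Reps σ v p P) {n j : ℕ} (hj : j ≤ n) :
    Rep σ v (RE.bco n L p j) (Red.bco n l P j) :=
  Rep.sum fun k hk => ((Rep.ofQ _ (Nat.choose_pos (by omega))).mul
    ((h.getD k).mul (hL.pow k))).congr (by push_cast; ring)

end Reps

end Vale.Agent.P219.CH.Relax.Six.CandB
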