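import Vale.Agent.P219.Relax.Six.CandB.Atom
import Vale.Agent.P219.Relax.Poly.FastCheck
import Vale.Agent.P219.Relax.Poly.Chart

/-!
# P219, dimension six: the linear conditions of the candidate as fractions

Each list of the reduction is mirrored, so each condition becomes the check of one numerator on the
parameter square, in charts where it is needed.
-/

noncomputable section

open Set

namespace Vale.Agent.P219.CH.Relax.Six.CandB

open Vale.Agent.P219.Poly (E)
open Five (Pt)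

/-! ## The mirrored quantities -/

/-- `g G`. -/
def gGR : RE := gR.mul pxR
/-- The constant coefficient of the diagonal. -/
def k0R : RE := ((iR 1).add u1R).add (((iR 4).mul pR).mul uR)
/-- The linear coefficient. -/
def k1R : RE := ((g1R.add (((iR 4).mul pR).mul pxR)).sub ((iR 5).mul uR)).add gGR
/-- The quadratic coefficient. -/
def k2R : RE := (u1R.neg.add (pR.mul uR)).sub ((iR 5).mul pxR)
/-- The cubic coefficient. -/
def k3R : RE := (g1R.neg.add (pR.mul pxR)).sub gGR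
/-- The convexity at the contact. -/
def c1R : RE := (((iR 2).add tR).mul k0R).add (tR.mul k1R)
/-- The slope of the diagonal over the square. -/
def slR : RE := (((iR (-2)).mul k0R).mul (itR.pow 3)).sub (k1R.mul ixR) |>.add k3R
/-- The diagonal at the contact over its square, twice. -/
def tanR : RE := ((iR 2).mul (((k0R.add (k1R.mul tR)).add (k2R.mul xR)).add
  (k3R.mul (tR.pow 3)))).mul ixR
/-- The loss at the contact, times the slope. -/
def hlR : RE := slR.mul ((qR.mul tR).mul izR)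
/-- `1 - t`. -/
def owR : RE := (iR 1).sub tR
/-- Minus a half of `g G`. -/
def mhR : RE := gGR.neg.mul hR

/-- The side `d = 0`. -/
def zeroR : List RE :=
  [((iR 2).add ((iR 2).mul u1R)).add (((iR 8).mul pR).mul uR),
    ((g1R.add (((iR 4).mul pR).mul pxR)).sub ((iR 5).mul uR)).add gGR,
    (pR.mul uR).sub u1R, mhR]
/-- The diagonal with the gain. -/
def diagR : List RE := [k0R, k1R, k2R.add (gR.mul (uR.add pxR)), k3R]
/-- The kernel at `d = 1`. -/
def oneR : List RE :=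
  [((((iR 2).add ((((iR 5).mul pR).sub (iR 5)).mul uR)).add (u1R.add g1R)).add
      (((iR 4).mul pR).mul (uR.add pxR))).add (gGR.mul hR),
    (((((iR 5).mul pR).sub (iR 5)).mul pxR).sub ((iR 5).mul (uR.add pxR))).add (gGR.mul hR),
    (((u1R.add g1R).neg).add (pR.mul (uR.add pxR))).sub (gGR.mul hR), mhR]
/-- The kernel at `d = 1` with the gain. -/
def endGainR : List RE := RE.ad oneR [iR 0, (iR 2).mul (gR.mul (uR.add pxR))]
/-- The pair bound at `d = 1` without loss. -/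
def plainR : List RE :=
  RE.ad oneR (RE.sc (iR (-1)) [iR 0, tanR.add (slR.mul ((iR 1).sub ((iR 2).mul tR))), slR])
/-- Coefficient `k` in the second cosine of the mixed pair. -/
def mixR : ℕ → List RE
  | 0 => zeroR
  | 1 => [((((iR 5).mul uR).sub g1R).sub (((iR 4).mul pR).mul pxR)).add gGR,
      ((iR 10).mul pxR).sub ((iR 2).mul (gR.mul uR)), (g1R.sub (pR.mul pxR)).sub (gGR.mul hR)]
  | 2 => [(pR.mul uR).sub u1R, (g1R.neg.add (pR.mul pxR)).sub (gGR.mul hR)]
  | _ => [mhR]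
/-- Coefficient `k` in the second cosine of the pair with both cosines outward. -/
def outR : ℕ → List RE
  | 0 => [((iR 2).add ((iR 2).mul u1R)).add (((iR 8).mul pR).mul uR),
      ((g1R.neg.sub (((iR 4).mul pR).mul pxR)).add ((iR 5).mul uR)).add gGR,
      (pR.mul uR).sub u1R, mhR]
  | 1 => [((((iR 5).mul uR).sub g1R).sub (((iR 4).mul pR).mul pxR)).add gGR,
      (iR (-10)).mul pxR, (g1R.sub (pR.mul pxR)).sub (gGR.mul hR)]
  | 2 => [(pR.mul uR).sub u1R, (g1R.sub (pR.mul pxR)).sub (gGR.mul hR)]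
  | _ => [mhR]
/-- The Bernstein coefficient `j` in the second cosine. -/
def rowR (f : ℕ → List RE) : ℕ → List RE
  | 0 => f 0
  | 1 => RE.ad (f 0) (RE.sc (.ofQ 1 3) (f 1))
  | 2 => RE.ad (f 0) (RE.ad (RE.sc (.ofQ 2 3) (f 1)) (RE.sc (.ofQ 1 3) (f 2)))
  | _ => RE.ad (f 0) (RE.ad (f 1) (RE.ad (f 2) (f 3)))
/-- The end beyond the contact. -/
def endHiR : List RE :=
  RE.sb tR (iR 1) (RE.ad plainR (RE.sc hlR.neg
    [iR 0, (owR.pow 2).add xR, (iR (-2)).mul tR, iR 1]))
/-- The end short of the contact, times the concavity factor. -/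
def endLoR : List RE :=
  RE.ad (RE.mu [iR 1, iR 0, qR.neg] (RE.ad plainR [iR 0, (hlR.mul (owR.pow 2)).neg]))
    (RE.sc ((slR.mul qR).mul hR).neg [iR 0, tR.pow 3, (tR.pow 2).neg, tR.neg, iR 1])
/-- The diagonal over `b ^ 2`. -/
def lamR : List RE :=
  [((iR 2).mul (itR.pow 3)).mul ((owR.mul (k0R.mul tR)).add (tR.mul c1R)),
    ((iR 2).mul (itR.pow 3)).mul ((k0R.mul tR).sub c1R)]
/-- `2 t - 1`. -/
def twR : RE := ((iR 2).mul tR).sub (iR 1)
/-- The pair bound at `d = 1`, in `b`. -/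
def sideR : List RE := RE.sb twR (iR (-2)) plainR
/-- The concavity factor, in `b`. -/
def facR : List RE := RE.sb twR (iR (-2)) [iR 1, iR 0, qR.neg]
/-- The loss, times the concavity factor, in `b`. -/
def lossR : List RE :=
  RE.sc ((slR.mul qR).mul hR) (RE.mu [twR, iR (-2)] [((iR 3).mul tR).sub (iR 1), iR (-2)])
/-- The first middle condition. -/
def midAR : List RE :=
  RE.ad (RE.mu facR (RE.ad (RE.mu [owR.pow 3, (iR 4).mul (owR.pow 2), (iR 2).mul owR] lamR)
      (RE.mu [(iR 3).mul owR, iR 2] sideR)))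
    (RE.sc (iR (-8)) (RE.mu (RE.mu [owR, iR 1] (RE.mu [owR, iR 1] [owR, iR 1])) lossR))
/-- The second middle condition. -/
def midBR : List RE :=
  RE.ad (RE.mu [(iR 2).mul owR, iR 2]
      (RE.ad (RE.mu facR (RE.ad sideR (RE.sc (hlR.mul (owR.pow 2)).neg [twR, iR (-2)])))
        (RE.sc (iR (-1)) (RE.mu lossR (RE.mu [owR, iR 2] [owR, iR 2])))))
    (RE.sc owR (RE.ad (RE.mu facR (RE.ad sideR (RE.mu [iR 0, owR] lamR)))
      (RE.sc (iR (-2)) (RE.mu lossR (RE.mu [owR, iR 1] [owR, iR 2])))))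

/-! ## They represent -/

namespace Param

variable {σ v : ℝ} (h : Param σ v)
include h

lemma rep_gG : Rep σ v gGR ((ptB σ v).g * (ptB σ v).G) := h.rep_g.mul h.rep_G

lemma rep_k0 : Rep σ v k0R (k0 (ptB σ v)) :=
  (((Rep.int 1).add h.rep_U1).add (((Rep.int 4).mul h.rep_p).mul h.rep_U)).congr
    (by simp [k0])

lemma rep_k1 : Rep σ v k1R (k1 (ptB σ v)) :=
  (((h.rep_G1.add (((Rep.int 4).mul h.rep_p).mul h.rep_G)).sub
    ((Rep.int 5).mul h.rep_U)).add h.rep_gG).congr (by simp [k1])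

lemma rep_k2 : Rep σ v k2R (k2 (ptB σ v)) :=
  ((h.rep_U1.neg.add (h.rep_p.mul h.rep_U)).sub ((Rep.int 5).mul h.rep_G)).congr (by simp [k2])

lemma rep_k3 : Rep σ v k3R (k3 (ptB σ v)) :=
  ((h.rep_G1.neg.add (h.rep_p.mul h.rep_G)).sub h.rep_gG).congr (by simp [k3])

lemma rep_c1 : Rep σ v c1R
    ((2 + RootGen.tp σ v) * k0 (ptB σ v) + RootGen.tp σ v * k1 (ptB σ v)) :=
  ((((Rep.int 2).add h.rep_t).mul h.rep_k0).add (h.rep_t.mul h.rep_k1)).congr (by simp)

lemma rep_sl : Rep σ v slR (slope (ptB σ v) (RootGen.tp σ v)) :=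
  (((((Rep.int (-2)).mul h.rep_k0).mul (h.rep_it.pow 3)).sub (h.rep_k1.mul h.rep_ix)).add
    h.rep_k3).congr (by simp only [slope, div_eq_mul_inv, inv_pow]; push_cast; ring)

lemma rep_tan : Rep σ v tanR (2 * diag (ptB σ v) (RootGen.tp σ v) / RootGen.tp σ v ^ 2) :=
  (((Rep.int 2).mul (((h.rep_k0.add (h.rep_k1.mul h.rep_t)).add (h.rep_k2.mul h.rep_x)).add
    (h.rep_k3.mul (h.rep_t.pow 3)))).mul h.rep_ix).congr
    (by simp only [diag, div_eq_mul_inv]; push_cast; ring)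

lemma rep_hl : Rep σ v hlR (slope (ptB σ v) (RootGen.tp σ v) *
    hLoss (concQ (1 - σ ^ 2)) (RootGen.tp σ v) (RootGen.tp σ v)) :=
  (h.rep_sl.mul ((h.rep_q.mul h.rep_t).mul h.rep_iz)).congr
    (by simp only [hLoss, min_self, div_eq_mul_inv, mul_inv]; ring)

lemma rep_ow : Rep σ v owR (1 - RootGen.tp σ v) := ((Rep.int 1).sub h.rep_t).congr (by simp)

lemma rep_tw : Rep σ v twR (2 * RootGen.tp σ v - 1) :=
  (((Rep.int 2).mul h.rep_t).sub (Rep.int 1)).congr (by simp)

lemma rep_mh : Rep σ v mhR (-((ptB σ v).g * (ptB σ v).G) / 2) :=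
  (h.rep_gG.neg.mul h.rep_half).congr (by ring)

lemma rep_i (z : ℤ) : Rep σ v (iR z) (z : ℝ) := Rep.int z

lemma reps_zero : Reps σ v zeroR (Red.zeroL (ptB σ v)) :=
  .cons ((((Rep.int 2).add ((Rep.int 2).mul h.rep_U1)).add
      (((Rep.int 8).mul h.rep_p).mul h.rep_U)).congr (by simp))
    (.cons ((((h.rep_G1.add (((Rep.int 4).mul h.rep_p).mul h.rep_G)).sub
      ((Rep.int 5).mul h.rep_U)).add h.rep_gG).congr (by simp))
    (.cons ((h.rep_p.mul h.rep_U).sub h.rep_U1) (.cons h.rep_mh .nil)))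

lemma reps_diag : Reps σ v diagR (Red.diagL (ptB σ v)) :=
  .cons h.rep_k0 (.cons h.rep_k1
    (.cons (h.rep_k2.add (h.rep_g.mul (h.rep_U.add h.rep_G))) (.cons h.rep_k3 .nil)))

lemma reps_one : Reps σ v oneR (Red.oneL (ptB σ v)) := by
  have a0 := ((((Rep.int (σ := σ) (v := v) 2).add
    ((((Rep.int 5).mul h.rep_p).sub (Rep.int 5)).mul h.rep_U)).add
      (h.rep_U1.add h.rep_G1)).add (((Rep.int 4).mul h.rep_p).mul (h.rep_U.add h.rep_G))).add
        (h.rep_gG.mul h.rep_half)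
  have a1 := (((((Rep.int (σ := σ) (v := v) 5).mul h.rep_p).sub (Rep.int 5)).mul h.rep_G).sub
    ((Rep.int 5).mul (h.rep_U.add h.rep_G))).add (h.rep_gG.mul h.rep_half)
  have a2 := ((h.rep_U1.add h.rep_G1).neg.add (h.rep_p.mul (h.rep_U.add h.rep_G))).sub
    (h.rep_gG.mul h.rep_half)
  refine .cons (a0.congr ?_) (.cons (a1.congr ?_) (.cons (a2.congr ?_) (.cons h.rep_mh .nil)))
  all_goals push_cast
  all_goals ring

lemma reps_endGain : Reps σ v endGainR (Red.endGainL (ptB σ v)) :=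
  h.reps_one.ad (.cons ((Rep.int 0).congr (by simp))
    (.cons (((Rep.int 2).mul (h.rep_g.mul (h.rep_U.add h.rep_G))).congr (by simp)) .nil))

lemma reps_plain : Reps σ v plainR (Red.plainL (ptB σ v) (RootGen.tp σ v)) :=
  h.reps_one.ad (Reps.sc ((Rep.int (-1)).congr (by simp)) (.cons ((Rep.int 0).congr (by simp))
    (.cons ((h.rep_tan.add (h.rep_sl.mul ((Rep.int 1).sub ((Rep.int 2).mul h.rep_t)))).congr
      (by simp)) (.cons h.rep_sl .nil))))

lemma reps_mix : ∀ j, Reps σ v (mixR j) (Red.mixL (ptB σ v) j)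
  | 0 => h.reps_zero
  | 1 => .cons ((((((Rep.int 5).mul h.rep_U).sub h.rep_G1).sub
      (((Rep.int 4).mul h.rep_p).mul h.rep_G)).add h.rep_gG).congr (by simp))
    (.cons ((((Rep.int 10).mul h.rep_G).sub ((Rep.int 2).mul (h.rep_g.mul h.rep_U))).congr
      (by simp))
    (.cons (((h.rep_G1.sub (h.rep_p.mul h.rep_G)).sub (h.rep_gG.mul h.rep_half)).congr
      (by ring)) .nil))
  | 2 => .cons ((h.rep_p.mul h.rep_U).sub h.rep_U1)
    (.cons (((h.rep_G1.neg.add (h.rep_p.mul h.rep_G)).sub (h.rep_gG.mul h.rep_half)).congr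
      (by ring)) .nil)
  | _ + 3 => .cons h.rep_mh .nil

lemma reps_out : ∀ j, Reps σ v (outR j) (Red.outL (ptB σ v) j)
  | 0 => .cons ((((Rep.int 2).add ((Rep.int 2).mul h.rep_U1)).add
      (((Rep.int 8).mul h.rep_p).mul h.rep_U)).congr (by simp))
    (.cons ((((h.rep_G1.neg.sub (((Rep.int 4).mul h.rep_p).mul h.rep_G)).add
      ((Rep.int 5).mul h.rep_U)).add h.rep_gG).congr (by simp))
    (.cons ((h.rep_p.mul h.rep_U).sub h.rep_U1) (.cons h.rep_mh .nil)))
  | 1 => .cons ((((((Rep.int 5).mul h.rep_U).sub h.rep_G1).sub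
      (((Rep.int 4).mul h.rep_p).mul h.rep_G)).add h.rep_gG).congr (by simp))
    (.cons (((Rep.int (-10)).mul h.rep_G).congr (by simp))
    (.cons (((h.rep_G1.sub (h.rep_p.mul h.rep_G)).sub (h.rep_gG.mul h.rep_half)).congr
      (by ring)) .nil))
  | 2 => .cons ((h.rep_p.mul h.rep_U).sub h.rep_U1)
    (.cons (((h.rep_G1.sub (h.rep_p.mul h.rep_G)).sub (h.rep_gG.mul h.rep_half)).congr
      (by ring)) .nil)
  | _ + 3 => .cons h.rep_mh .nil

omit h in
lemma reps_row {f : ℕ → List RE} {F : ℕ → List ℝ} (hf : ∀ j, Reps σ v (f j) (F j)) :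
    ∀ j, Reps σ v (rowR f j) (Red.rowL F j)
  | 0 => hf 0
  | 1 => (hf 0).ad (Reps.sc ((Rep.ofQ 1 three_pos).congr (by norm_num)) (hf 1))
  | 2 => (hf 0).ad ((Reps.sc ((Rep.ofQ 2 three_pos).congr (by norm_num)) (hf 1)).ad
      (Reps.sc ((Rep.ofQ 1 three_pos).congr (by norm_num)) (hf 2)))
  | _ + 3 => (hf 0).ad ((hf 1).ad ((hf 2).ad (hf 3)))

lemma reps_endHi : Reps σ v endHiR
    (Red.endHiL (concQ (1 - σ ^ 2)) (ptB σ v) (RootGen.tp σ v)) :=
  Reps.sb h.rep_t ((Rep.int 1).congr (by simp)) (h.reps_plain.ad (Reps.sc h.rep_hl.neg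
    (.cons ((Rep.int 0).congr (by simp))
      (.cons (((h.rep_ow.pow 2).add h.rep_x).congr (by simp))
      (.cons (((Rep.int (-2)).mul h.rep_t).congr (by simp))
      (.cons ((Rep.int 1).congr (by simp)) .nil))))))

lemma reps_endLo : Reps σ v endLoR
    (Red.endLoL (concQ (1 - σ ^ 2)) (ptB σ v) (RootGen.tp σ v)) :=
  ((Reps.cons ((Rep.int 1).congr (by simp)) (.cons ((Rep.int 0).congr (by simp))
    (.cons h.rep_q.neg .nil))).mu (h.reps_plain.ad (.cons ((Rep.int 0).congr (by simp))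
      (.cons (h.rep_hl.mul (h.rep_ow.pow 2)).neg .nil)))).ad
    (Reps.sc (((h.rep_sl.mul h.rep_q).mul h.rep_half).neg.congr (by ring))
      (.cons ((Rep.int 0).congr (by simp)) (.cons (h.rep_t.pow 3)
        (.cons (h.rep_t.pow 2).neg (.cons h.rep_t.neg
          (.cons ((Rep.int 1).congr (by simp)) .nil))))))

lemma reps_lam : Reps σ v lamR (Red.lamL (ptB σ v) (RootGen.tp σ v)) :=
  .cons ((((Rep.int 2).mul (h.rep_it.pow 3)).mul
      ((h.rep_ow.mul (h.rep_k0.mul h.rep_t)).add (h.rep_t.mul h.rep_c1))).congr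
      (by simp only [div_eq_mul_inv, inv_pow]; push_cast; ring))
    (.cons ((((Rep.int 2).mul (h.rep_it.pow 3)).mul
      ((h.rep_k0.mul h.rep_t).sub h.rep_c1)).congr
      (by simp only [div_eq_mul_inv, inv_pow]; push_cast; ring)) .nil)

lemma rep_m2 : Rep σ v (iR (-2)) (-2 : ℝ) := (Rep.int (-2)).congr (by simp)

lemma rep_two : Rep σ v (iR 2) (2 : ℝ) := (Rep.int 2).congr (by simp)

lemma rep_one : Rep σ v (iR 1) (1 : ℝ) := (Rep.int 1).congr (by simp)

lemma reps_side : Reps σ v sideR (Red.sideL (ptB σ v) (RootGen.tp σ v)) :=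
  Reps.sb h.rep_tw h.rep_m2 h.reps_plain

lemma reps_fac : Reps σ v facR (Red.facL (concQ (1 - σ ^ 2)) (RootGen.tp σ v)) :=
  Reps.sb h.rep_tw h.rep_m2 (.cons h.rep_one (.cons ((Rep.int 0).congr (by simp))
    (.cons h.rep_q.neg .nil)))

lemma reps_loss : Reps σ v lossR
    (Red.lossL (concQ (1 - σ ^ 2)) (ptB σ v) (RootGen.tp σ v)) :=
  Reps.sc (((h.rep_sl.mul h.rep_q).mul h.rep_half).congr (by ring))
    ((Reps.cons h.rep_tw (.cons h.rep_m2 .nil)).mu
      (.cons ((((Rep.int 3).mul h.rep_t).sub (Rep.int 1)).congr (by simp))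
        (.cons h.rep_m2 .nil)))

lemma reps_midA : Reps σ v midAR
    (Red.midAL (concQ (1 - σ ^ 2)) (ptB σ v) (RootGen.tp σ v)) :=
  (h.reps_fac.mu (((Reps.cons (h.rep_ow.pow 3)
      (.cons (((Rep.int 4).mul (h.rep_ow.pow 2)).congr (by simp))
        (.cons (h.rep_two.mul h.rep_ow) .nil))).mu h.reps_lam).ad
      ((Reps.cons (((Rep.int 3).mul h.rep_ow).congr (by simp))
        (.cons h.rep_two .nil)).mu h.reps_side))).ad
    (Reps.sc ((Rep.int (-8)).congr (by simp))
      (((Reps.cons h.rep_ow (.cons h.rep_one .nil)).mu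
        ((Reps.cons h.rep_ow (.cons h.rep_one .nil)).mu
          (.cons h.rep_ow (.cons h.rep_one .nil)))).mu h.reps_loss))

lemma reps_midB : Reps σ v midBR
    (Red.midBL (concQ (1 - σ ^ 2)) (ptB σ v) (RootGen.tp σ v)) :=
  ((Reps.cons (h.rep_two.mul h.rep_ow) (.cons h.rep_two .nil)).mu
    ((h.reps_fac.mu (h.reps_side.ad (Reps.sc (h.rep_hl.mul (h.rep_ow.pow 2)).neg
      (.cons h.rep_tw (.cons h.rep_m2 .nil))))).ad
      (Reps.sc ((Rep.int (-1)).congr (by simp)) (h.reps_loss.mu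
        ((Reps.cons h.rep_ow (.cons h.rep_two .nil)).mu
          (.cons h.rep_ow (.cons h.rep_two .nil))))))).ad
    (Reps.sc h.rep_ow ((h.reps_fac.mu (h.reps_side.ad
        ((Reps.cons ((Rep.int 0).congr (by simp)) (.cons h.rep_ow .nil)).mu h.reps_lam))).ad
      (Reps.sc h.rep_m2 (h.reps_loss.mu ((Reps.cons h.rep_ow (.cons h.rep_one .nil)).mu
        (.cons h.rep_ow (.cons h.rep_two .nil)))))))

end Param

/-! ## From a check to a sign -/

/-- The bump that witnesses strictness. -/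
def bump : E := .mul (.mul (.pow (.x 0) 12) (.pow (.bar 0) 5)) (.pow (.x 1) 4)

/-- The numerator strictly positive inside: a large multiple dominates the bump. -/
def strictE (a : RE) : E := .add (.mul (.k (2 ^ 200)) a.num) (.neg bump)

/-- The checker on one fraction. -/
def okR (a : RE) : Bool := E.check2 a.num

/-- The checker on the six charts of the square. -/
def okSq (a : RE) : Bool := E.squareCheck E.check2 a.num

/-- The Bernstein coefficients from `i` to `j` pass a check. -/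
def allIn (f : RE → Bool) (n : ℕ) (L : RE) (p : List RE) (i j : ℕ) : Bool :=
  ((List.range (n + 1)).filter fun k => decide (i ≤ k ∧ k ≤ j)).all fun k => f (RE.bco n L p k)

lemma sound2 : E.Sound E.check2 := fun _ h _ hv => E.sem_nonneg2 h hv

namespace Param

variable {σ v : ℝ} (h : Param σ v) {a : RE} {x : ℝ}
include h

lemma mem_cube : ∀ i, env σ v i ∈ Icc (0 : ℝ) 1 := by
  intro i
  fin_cases i <;> simp [env, h.hσ.1.le, h.hσ.2.le, h.hv.1.le, h.hv.2]

lemma nonneg_ok (hr : Rep σ v a x) (hc : okR a = true) : 0 ≤ x :=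
  hr.nonneg (h.val_pos _) (E.sem_nonneg2 hc h.mem_cube)

lemma nonneg_sq (hr : Rep σ v a x) (hc : okSq a = true) : 0 ≤ x :=
  hr.nonneg (h.val_pos _)
    (E.square_nonneg sound2 hc ⟨h.hσ.1.le, h.hσ.2.le⟩ ⟨h.hv.1.le, h.hv.2⟩)

lemma pos_strict (hr : Rep σ v a x) (hc : E.check2 (strictE a) = true) : 0 < x := by
  refine hr.pos (h.val_pos _) ?_
  have h0 := E.sem_nonneg2 hc h.mem_cube
  have hb : 0 < E.sem (env σ v) bump := by
    have := h.hσ.1
    have := sub_pos.2 h.hσ.2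
    have := h.hv.1
    simp only [bump, E.sem, env_zero, env_one]
    positivity
  rw [strictE] at h0
  simp only [E.sem] at h0
  exact pos_of_mul_pos_right (a := (((2 : ℤ) ^ 200 : ℤ) : ℝ)) (by linarith) (by positivity)

end Param

end Vale.Agent.P219.CH.Relax.Six.CandB
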