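import Vale.Agent.P219.Relax.Six.CandB.CheckA
import Vale.Agent.P219.Relax.Six.CandB.CheckB
import Vale.Agent.P219.Relax.Six.CandB.CheckC
import Vale.Agent.P219.Relax.Six.CandB.CheckD
import Vale.Agent.P219.Relax.Six.Cand.Assemble

/-!
# P219, dimension six: the certificates for every curvature bound

The candidate solves the tangency equation and satisfies every condition inside the diameter, with
the margins that strictness needs.
-/

noncomputable section

open Set

namespace Vale.Agent.P219.CH.Relax.Six.CandB

namespace Param

variable {σ v : ℝ} (h : Param σ v)
include h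

lemma inCoef : InCoef (concQ (1 - σ ^ 2)) (ptB σ v) (RootGen.tp σ v) where
  weight_pos := h.weight_pos
  slope_nonpos := h.slope_neg.le
  mono := h.mono
  conv₀ := h.conv0
  conv₁ := h.convex.le
  down := h.down
  zero := h.zero
  gainDiag := h.gainDiag
  gainEnd := h.gainEnd
  mixed := h.mixed
  outward := h.outward
  endHi := h.endHi
  endLo := h.endLo
  midA := h.midA
  midB := h.midB

lemma inMargin : Strictly.InMargin (ptB σ v) (RootGen.tp σ v) := ⟨h.low, h.weight, h.slope', h.convex⟩

end Param

/-- Certificates against every ball, dimension six. -/
theorem cert_six : Cert 6 := Cand.cert_six_of_coef fun _ _ h => Param.inCoef h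

/-- Strict certificates against every ball, dimension six. -/
theorem strictCert_six : Rigid.StrictCert 6 :=
  Cand.strictCert_six_of_coef (fun _ _ h => Param.inCoef h) fun _ _ h => Param.inMargin h

end Vale.Agent.P219.CH.Relax.Six.CandB
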