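import Vale.Agent.P219.Relax.Six.CandB.Check

/-!
# P219, dimension six: nonnegativity from few squares

Near the corner `σ = 0`, `v = 1` a few Bernstein coefficients are negative. Subtracting squares of
binomials, each times a basis element, leaves only nonnegative coefficients.
-/

open Set

namespace Vale.Agent.P219.CH.Relax.Six.CandB

open Vale.Agent.P219.Poly (E)

/-- A basis element times the square of a binomial, of degree `n`, `m`. -/
def sqE (n m : ℕ) : ℕ × ℕ × ℕ × ℕ × ℕ → E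
  | (i, j, p, μ, ν) =>
    .mul (.mul (.mul (.pow (.x 0) (i - p)) (.pow (.bar 0) (n - i - p)))
        (.mul (.pow (.x 1) (j - p)) (.pow (.bar 1) (m - j - p))))
      (.pow (.add (.mul (.k μ) (.pow (.mul (.bar 0) (.bar 1)) p))
        (.mul (.k (-ν)) (.pow (.mul (.x 0) (.x 1)) p))) 2)

/-- The sum of the squares. -/
def sqsE (n m : ℕ) : List (ℕ × ℕ × ℕ × ℕ × ℕ) → E
  | [] => .k 0
  | [a] => sqE n m a
  | a :: l => .add (sqE n m a) (sqsE n m l)

/-- All coefficients are nonnegative once the squares are subtracted. -/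
def sosOk (p : E) (l : List (ℕ × ℕ × ℕ × ℕ × ℕ)) : Bool :=
  E.check2 (.add p (.neg (sqsE (E.deg p 0) (E.deg p 1) l)))

lemma sqE_nonneg {w : Fin 3 → ℝ} (hw : ∀ i, w i ∈ Icc (0 : ℝ) 1) (n m : ℕ)
    (a : ℕ × ℕ × ℕ × ℕ × ℕ) : 0 ≤ E.sem w (sqE n m a) := by
  obtain ⟨i, j, p, μ, ν⟩ := a
  have := (hw 0).1
  have := (hw 1).1
  have := sub_nonneg.2 (hw 0).2
  have := sub_nonneg.2 (hw 1).2
  simp only [sqE, E.sem]
  positivity

lemma sqsE_nonneg {w : Fin 3 → ℝ} (hw : ∀ i, w i ∈ Icc (0 : ℝ) 1) (n m : ℕ) :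
    ∀ l, 0 ≤ E.sem w (sqsE n m l)
  | [] => by simp [sqsE, E.sem]
  | [a] => sqE_nonneg hw n m a
  | a :: b :: l => by
    have h2 := sqsE_nonneg hw n m (b :: l)
    have h1 := sqE_nonneg hw n m a
    rw [sqsE]
    · simp only [E.sem]
      exact add_nonneg h1 h2
    · simp

theorem sosOk_sound {p : E} {l : List (ℕ × ℕ × ℕ × ℕ × ℕ)} (h : sosOk p l = true)
    {w : Fin 3 → ℝ} (hw : ∀ i, w i ∈ Icc (0 : ℝ) 1) : 0 ≤ E.sem w p := by
  have h1 := E.sem_nonneg2 h hw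
  have h2 := sqsE_nonneg hw (E.deg p 0) (E.deg p 1) l
  simp only [E.sem] at h1
  linarith

/-- `σ = r`, `v = 1 - r a`. -/
def cA : E.Map := ⟨.x 0, .add (.k 1) (.neg (.mul (.x 0) (.x 1))), 1, 1⟩

/-- `σ = r a`, `v = 1 - r`. -/
def cB : E.Map := ⟨.mul (.x 0) (.x 1), .bar 0, 1, 1⟩

/-- The numerator is nonnegative on the square. -/
def Good (a : RE) : Prop :=
  ∀ σ v : ℝ, σ ∈ Icc (0 : ℝ) 1 → v ∈ Icc (0 : ℝ) 1 → 0 ≤ E.sem (env σ v) a.num

/-- The numerator is nonnegative where `(1 + σ) / 4 ≤ v`. -/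
def GoodMid (a : RE) : Prop :=
  ∀ σ v : ℝ, σ ∈ Icc (0 : ℝ) 1 → v ∈ Icc ((1 + σ) / 4) 1 → 0 ≤ E.sem (env σ v) a.num

lemma mem_env {σ v : ℝ} (hσ : σ ∈ Icc (0 : ℝ) 1) (hv : v ∈ Icc (0 : ℝ) 1) :
    ∀ i, env σ v i ∈ Icc (0 : ℝ) 1 := by
  intro i
  fin_cases i <;> simp [env, hσ.1, hσ.2, hv.1, hv.2]

variable {a : RE} {l : List (ℕ × ℕ × ℕ × ℕ × ℕ)}

theorem good_of_ok (h : okR a = true) : Good a :=
  fun _ _ hσ hv => E.sem_nonneg2 h (mem_env hσ hv)

theorem good_of_sq (h : okSq a = true) : Good a :=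
  fun _ _ hσ hv => E.square_nonneg sound2 h hσ hv

theorem good_of_sos (h : sosOk a.num l = true) : Good a :=
  fun _ _ hσ hv => sosOk_sound h (mem_env hσ hv)

theorem good_of_two (hA : E.check2 (cA.app a.num) = true) (hB : sosOk (cB.app a.num) l = true) :
    Good a := by
  intro σ v hσ hv
  have hu := sub_nonneg.2 hv.2
  rcases le_or_gt (1 - v) σ with h | h
  · obtain ⟨b, hb, hb0, hb1⟩ : ∃ b, σ * b = 1 - v ∧ 0 ≤ b ∧ b ≤ 1 := by
      rcases hσ.1.eq_or_lt with h0 | h0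
      · exact ⟨0, by linarith, le_rfl, zero_le_one⟩
      · exact ⟨(1 - v) / σ, mul_div_cancel₀ _ h0.ne', div_nonneg hu h0.le, (div_le_one h0).2 h⟩
    exact cA.nonneg sound2 hA (by decide) (by decide) (r := σ) (a := b) hσ ⟨hb0, hb1⟩
      (by simp [cA, E.sem]) (by simp [cA, E.sem]; linarith)
  · have h0 : 0 < 1 - v := hσ.1.trans_lt h
    exact cB.nonneg (chk := fun p => sosOk p l) (fun _ h v hv => sosOk_sound h hv) hB (by decide)
      (by decide) (r := 1 - v) (a := σ / (1 - v)) ⟨hu, by linarith [hv.1]⟩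
      ⟨div_nonneg hσ.1 hu, (div_le_one h0).2 h.le⟩ (by simp [cB, E.sem, mul_div_cancel₀ _ h0.ne'])
      (by simp [cB, E.sem])

theorem mid_of_ok (h : E.check2 (E.cM.app a.num) = true) : GoodMid a :=
  fun _ _ hσ hv => E.mid_nonneg_one sound2 h hσ hv

theorem mid_of_sos (h : sosOk (E.cM.app a.num) l = true) : GoodMid a :=
  fun _ _ hσ hv => E.mid_nonneg_one (chk := fun p => sosOk p l)
    (fun _ h v hv => sosOk_sound h hv) h hσ hv

namespace Param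

variable {σ v : ℝ} (h : Param σ v)
include h

lemma bern_good {n : ℕ} {L : RE} {x : ℝ} {p : List RE} {P : List ℝ} (hL : Rep σ v L x)
    (hp : Reps σ v p P) (hc : ∀ j ≤ n, Good (RE.bco n L p j)) : Red.Bern n x P := fun j hj =>
  (Reps.bco hL hp hj).nonneg (h.val_pos _)
    (hc j hj σ v ⟨h.hσ.1.le, h.hσ.2.le⟩ ⟨h.hv.1.le, h.hv.2⟩)

lemma bern_goodMid {p : List RE} {P : List ℝ} (hp : Reps σ v p P)
    (hc : ∀ j ≤ 6, GoodMid (RE.bco 6 (tR.sub hR) p j)) (ht : 1 / 2 < RootGen.tp σ v) :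
    Red.Bern 6 ((2 * RootGen.tp σ v - 1) / 2) P := fun j hj =>
  (Reps.bco ((h.rep_t.sub h.rep_half).congr
      (y := (2 * RootGen.tp σ v - 1) / 2) (by ring)) hp hj).nonneg (h.val_pos _)
    (hc j hj σ v ⟨h.hσ.1.le, h.hσ.2.le⟩ ⟨h.v_mid ht, h.hv.2⟩)

end Param

end Vale.Agent.P219.CH.Relax.Six.CandB
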